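import Vale.Agent.P144Z.Gr

/-!
Grassmann calculus: derivatives, Gaussian convolution, locality and substitution.
-/

namespace Vale.Agent.P144Z

open Finset Matrix

section A1
variable {S S' : Type} [Fintype S] [DecidableEq S] [Fintype S'] [DecidableEq S']

namespace A1

/-- The grade involution. -/
noncomputable abbrev inv : Gr S →ₐ[ℝ] Gr S := CliffordAlgebra.involute

/-- The reversal. -/
noncomputable abbrev rev : Gr S →ₗ[ℝ] Gr S := CliffordAlgebra.reverse

omit [Fintype S] [DecidableEq S] in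
/-- Induction on words. -/
theorem left_ind {P : Gr S → Prop} (h1 : P 1) (hadd : ∀ F G, P F → P G → P (F + G))
    (hsmul : ∀ (c : ℝ) F, P F → P (c • F)) (hpsi : ∀ δ F, P F → P (psi δ * F)) (F : Gr S) :
    P F := by
  induction F using CliffordAlgebra.left_induction with
  | algebraMap r => rw [Algebra.algebraMap_eq_smul_one]; exact hsmul r 1 h1
  | add x y hx hy => exact hadd x y hx hy
  | ι_mul x m hx => exact hpsi m x hx

omit [Fintype S] in
theorem gen_mem {T : Set S} {s : S} (hs : s ∈ T) : gen s ∈ loc T :=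
  Algebra.subset_adjoin ⟨s, hs, rfl⟩

omit [Fintype S] in
/-- Induction on words in the generators of `T`. -/
theorem loc_ind' {T : Set S} {P : Gr S → Prop} (h1 : P 1) (hadd : ∀ F G, P F → P G → P (F + G))
    (hsmul : ∀ (c : ℝ) F, P F → P (c • F))
    (hgen : ∀ s ∈ T, ∀ F ∈ loc T, P F → P (gen s * F)) {F : Gr S} (hF : F ∈ loc T) : P F := by
  have key : ∀ G ∈ loc T, P G → P (F * G) := by
    induction hF using Algebra.adjoin_induction with
    | mem x hx => obtain ⟨s, hs, rfl⟩ := hx; exact hgen s hs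
    | algebraMap r => intro G _ hG; rw [← Algebra.smul_def]; exact hsmul r G hG
    | add x y _ _ hx hy => intro G hG hP; rw [add_mul]; exact hadd _ _ (hx G hG hP) (hy G hG hP)
    | mul x y _ hy' hx hy =>
      intro G hG hP
      rw [mul_assoc]
      exact hx _ (Subalgebra.mul_mem _ hy' hG) (hy G hG hP)
  simpa using key 1 (Subalgebra.one_mem _) h1

omit [Fintype S] in
/-- The same, with the membership proofs. -/
theorem loc_ind {T : Set S} {P : ∀ F : Gr S, F ∈ loc T → Prop} (h1 : P 1 (Subalgebra.one_mem _))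
    (hadd : ∀ F G hF hG, P F hF → P G hG → P (F + G) (Subalgebra.add_mem _ hF hG))
    (hsmul : ∀ (c : ℝ) F hF, P F hF → P (c • F) (Subalgebra.smul_mem _ hF c))
    (hgen : ∀ s (hs : s ∈ T) F hF, P F hF → P (gen s * F) (Subalgebra.mul_mem _ (gen_mem hs) hF))
    {F : Gr S} (hF : F ∈ loc T) : P F hF := by
  have : ∃ h, P F h := by
    refine loc_ind' (P := fun F => ∃ h, P F h) ⟨_, h1⟩ ?_ ?_ ?_ hF
    · rintro F G ⟨hF, h⟩ ⟨hG, h'⟩; exact ⟨_, hadd F G hF hG h h'⟩
    · rintro c F ⟨hF, h⟩; exact ⟨_, hsmul c F hF h⟩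
    · rintro s hs F _ ⟨hF, h⟩; exact ⟨_, hgen s hs F hF h⟩
  exact this.2

omit [Fintype S] in
theorem loc_mono {T T' : Set S} (h : T ⊆ T') : loc T ≤ loc T' :=
  Algebra.adjoin_mono (Set.image_mono h)

omit [Fintype S] [DecidableEq S] in
theorem psi_add (δ δ' : S → ℝ) : psi (δ + δ') = psi δ + psi δ' := map_add _ _ _

omit [Fintype S] [DecidableEq S] in
theorem psi_smul (c : ℝ) (δ : S → ℝ) : psi (c • δ) = c • psi δ := map_smul _ _ _

omit [Fintype S] [DecidableEq S] in
theorem psi_zero : psi (0 : S → ℝ) = 0 := map_zero _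

omit [Fintype S] [DecidableEq S] in
theorem psi_sq (δ : S → ℝ) : psi δ * psi δ = 0 := ExteriorAlgebra.ι_sq_zero δ

omit [Fintype S] [DecidableEq S] in
theorem psi_swap (a b : S → ℝ) : psi a * psi b = -(psi b * psi a) :=
  eq_neg_of_add_eq_zero_left (ExteriorAlgebra.ι_add_mul_swap a b)

theorem psi_eq_sum (δ : S → ℝ) : psi δ = ∑ s, δ s • gen s := by
  conv_lhs => rw [pi_eq_sum_univ' δ]
  unfold psi gen
  rw [map_sum]
  refine Finset.sum_congr rfl fun s _ => ?_
  rw [map_smul]
  rfl

theorem mem_loc_univ (F : Gr S) : F ∈ loc (Set.univ : Set S) := by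
  induction F using left_ind with
  | h1 => exact Subalgebra.one_mem _
  | hadd F G hF hG => exact Subalgebra.add_mem _ hF hG
  | hsmul c F hF => exact Subalgebra.smul_mem _ hF c
  | hpsi δ F hF =>
    refine Subalgebra.mul_mem _ ?_ hF
    rw [psi_eq_sum]
    exact Subalgebra.sum_mem _ fun s _ => Subalgebra.smul_mem _ (gen_mem (Set.mem_univ s)) _

omit [Fintype S] [DecidableEq S] in
theorem inv_psi (δ : S → ℝ) : inv (psi δ) = -psi δ := CliffordAlgebra.involute_ι δ

omit [Fintype S] [DecidableEq S] in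
theorem inv_inv (F : Gr S) : inv (inv F) = F := CliffordAlgebra.involute_involute F

omit [Fintype S] [DecidableEq S] in
theorem rev_psi (δ : S → ℝ) : rev (psi δ) = psi δ := CliffordAlgebra.reverse_ι δ

omit [Fintype S] [DecidableEq S] in
theorem rev_mul (F G : Gr S) : rev (F * G) = rev G * rev F := CliffordAlgebra.reverse.map_mul F G

omit [Fintype S] [DecidableEq S] in
theorem rev_one : rev (1 : Gr S) = 1 := CliffordAlgebra.reverse.map_one

omit [Fintype S] [DecidableEq S] in
theorem aug_psi (δ : S → ℝ) : aug (psi δ) = 0 := by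
  simp [aug, psi, ExteriorAlgebra.algebraMapInv]

omit [Fintype S] [DecidableEq S] [Fintype S'] [DecidableEq S'] in
theorem map_psi (f : (S → ℝ) →ₗ[ℝ] (S' → ℝ)) (δ : S → ℝ) :
    ExteriorAlgebra.map f (psi δ) = psi (f δ) := ExteriorAlgebra.map_apply_ι f δ

omit [Fintype S] [DecidableEq S] in
theorem mul_psi (F : Gr S) (δ : S → ℝ) : F * psi δ = psi δ * inv F := by
  induction F using left_ind with
  | h1 => simp
  | hadd F G hF hG => rw [add_mul, map_add, mul_add, hF, hG]
  | hsmul c F hF => rw [smul_mul_assoc, map_smul, mul_smul_comm, hF]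
  | hpsi a F hF =>
    rw [mul_assoc, hF, map_mul, inv_psi, ← mul_assoc, ← mul_assoc, psi_swap a δ, mul_neg]

omit [Fintype S] [DecidableEq S] in
theorem mem_even_iff {F : Gr S} : F ∈ evenS S ↔ inv F = F := by
  refine ⟨fun h => CliffordAlgebra.involute_eq_of_mem_even h, fun h => ?_⟩
  have hc := CliffordAlgebra.evenOdd_isCompl (0 : QuadraticForm ℝ (S → ℝ))
  have hF : F ∈ CliffordAlgebra.evenOdd (0 : QuadraticForm ℝ (S → ℝ)) 0 ⊔
      CliffordAlgebra.evenOdd (0 : QuadraticForm ℝ (S → ℝ)) 1 := by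
    rw [hc.sup_eq_top]; trivial
  obtain ⟨a, ha, b, hb, rfl⟩ := Submodule.mem_sup.1 hF
  have h2 : (2 : ℝ) • b = 0 := by
    have e := h
    rw [map_add, CliffordAlgebra.involute_eq_of_mem_even ha,
      CliffordAlgebra.involute_eq_of_mem_odd hb, add_right_inj] at e
    rw [two_smul]
    nth_rewrite 1 [← e]
    exact neg_add_cancel b
  rw [(smul_eq_zero.1 h2).resolve_left two_ne_zero, add_zero]
  exact ha

omit [Fintype S] [DecidableEq S] [Fintype S'] [DecidableEq S'] in
theorem map_inv (f : (S → ℝ) →ₗ[ℝ] (S' → ℝ)) (F : Gr S) :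
    ExteriorAlgebra.map f (inv F) = inv (ExteriorAlgebra.map f F) := by
  induction F using left_ind with
  | h1 => simp
  | hadd F G hF hG => simp only [map_add, hF, hG]
  | hsmul c F hF => simp only [map_smul, hF]
  | hpsi a F hF => simp only [map_mul, hF, inv_psi, map_psi, map_neg]

omit [Fintype S] [DecidableEq S] in
theorem aug_rev (F : Gr S) : aug (rev F) = aug F := by
  induction F using left_ind with
  | h1 => rw [rev_one]
  | hadd F G hF hG => simp only [map_add, hF, hG]
  | hsmul c F hF => simp only [map_smul, hF]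
  | hpsi a F _ => rw [rev_mul, rev_psi, map_mul, map_mul, aug_psi, mul_zero, zero_mul]

omit [Fintype S] [DecidableEq S] in
theorem aug_inv (F : Gr S) : aug (inv F) = aug F := by
  induction F using left_ind with
  | h1 => rw [map_one]
  | hadd F G hF hG => simp only [map_add, hF, hG]
  | hsmul c F hF => simp only [map_smul, hF]
  | hpsi a F _ => simp only [map_mul, inv_psi, map_neg, aug_psi, neg_zero, zero_mul]

omit [Fintype S] in
theorem inv_loc {T : Set S} {F : Gr S} (hF : F ∈ loc T) : inv F ∈ loc T := by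
  induction hF using loc_ind with
  | h1 => rw [map_one]; exact Subalgebra.one_mem _
  | hadd F G _ _ hF hG => rw [map_add]; exact Subalgebra.add_mem _ hF hG
  | hsmul c F _ hF => rw [map_smul]; exact Subalgebra.smul_mem _ hF c
  | hgen s hs F _ hF =>
    rw [map_mul, gen, inv_psi]
    exact Subalgebra.mul_mem _ (Subalgebra.neg_mem _ (gen_mem hs)) hF

omit [Fintype S] in
theorem rev_loc {T : Set S} {F : Gr S} (hF : F ∈ loc T) : rev F ∈ loc T := by
  induction hF using loc_ind with
  | h1 => rw [rev_one]; exact Subalgebra.one_mem _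
  | hadd F G _ _ hF hG => rw [map_add]; exact Subalgebra.add_mem _ hF hG
  | hsmul c F _ hF => rw [map_smul]; exact Subalgebra.smul_mem _ hF c
  | hgen s hs F _ hF =>
    rw [rev_mul, gen, rev_psi]
    exact Subalgebra.mul_mem _ hF (gen_mem hs)

end A1

open A1

omit [DecidableEq S] in
theorem del_psi_mul (g δ : S → ℝ) (F : Gr S) :
    del g (psi δ * F) = (δ ⬝ᵥ g) • F - psi δ * del g F :=
  CliffordAlgebra.contractLeft_ι_mul (pair g) δ F

namespace A1

omit [DecidableEq S] in
theorem del_one (g : S → ℝ) : del g (1 : Gr S) = 0 := CliffordAlgebra.contractLeft_one _ _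

omit [DecidableEq S] in
theorem del_psi (g δ : S → ℝ) : del g (psi δ) = (δ ⬝ᵥ g) • (1 : Gr S) := by
  have := del_psi_mul g δ 1
  rwa [mul_one, del_one, mul_zero, sub_zero] at this

theorem del_gen_mul (g : S → ℝ) (s : S) (F : Gr S) :
    del g (gen s * F) = g s • F - gen s * del g F := by
  rw [gen, del_psi_mul, single_one_dotProduct]

omit [DecidableEq S] in
theorem pair_add (g g' : S → ℝ) : pair (g + g') = pair g + pair g' :=
  LinearMap.ext fun δ => dotProduct_add δ g g'

omit [DecidableEq S] in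
theorem pair_smul (c : ℝ) (g : S → ℝ) : pair (c • g) = c • pair g :=
  LinearMap.ext fun δ => dotProduct_smul c δ g

omit [DecidableEq S] in
theorem del_add_left (g g' : S → ℝ) (F : Gr S) : del (g + g') F = del g F + del g' F := by
  unfold del
  rw [pair_add, map_add, LinearMap.add_apply]

omit [DecidableEq S] in
theorem del_smul_left (c : ℝ) (g : S → ℝ) (F : Gr S) : del (c • g) F = c • del g F := by
  unfold del
  rw [pair_smul, map_smul, LinearMap.smul_apply]

omit [DecidableEq S] in
theorem del_zero_left (F : Gr S) : del (0 : S → ℝ) F = 0 := by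
  rw [← zero_smul ℝ (0 : S → ℝ), del_smul_left, zero_smul]

omit [DecidableEq S] in
theorem del_neg_left (g : S → ℝ) (F : Gr S) : del (-g) F = -del g F := by
  rw [← neg_one_smul ℝ g, del_smul_left, neg_one_smul]

omit [DecidableEq S] in
theorem del_del (g : S → ℝ) (F : Gr S) : del g (del g F) = 0 :=
  CliffordAlgebra.contractLeft_contractLeft _ F

omit [DecidableEq S] in
theorem del_comm (g g' : S → ℝ) (F : Gr S) : del g (del g' F) = -del g' (del g F) :=
  CliffordAlgebra.contractLeft_comm _ _ F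

omit [DecidableEq S] in
/-- The derivative is an antiderivation. -/
theorem del_mul (g : S → ℝ) (F G : Gr S) : del g (F * G) = del g F * G + inv F * del g G := by
  induction F using left_ind with
  | h1 => rw [one_mul, del_one, zero_mul, zero_add, map_one, one_mul]
  | hadd F F' hF hF' => simp only [add_mul, map_add, hF, hF']; abel
  | hsmul c F hF => simp only [smul_mul_assoc, map_smul, hF, smul_add]
  | hpsi a F hF =>
    rw [mul_assoc, del_psi_mul, del_psi_mul, hF, map_mul, inv_psi]
    simp only [mul_add, sub_mul, smul_mul_assoc, mul_assoc, neg_mul]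
    abel

omit [DecidableEq S] in
theorem inv_del (g : S → ℝ) (F : Gr S) : inv (del g F) = -del g (inv F) := by
  induction F using left_ind with
  | h1 => rw [del_one, map_zero, map_one, del_one, neg_zero]
  | hadd F G hF hG => simp only [map_add, hF, hG, neg_add]
  | hsmul c F hF => simp only [map_smul, hF, smul_neg]
  | hpsi a F hF =>
    rw [del_psi_mul, map_sub, map_smul, map_mul, map_mul, hF, inv_psi, neg_mul, neg_mul, map_neg,
      del_psi_mul]
    simp

omit [DecidableEq S] in
theorem rev_del (g : S → ℝ) (F : Gr S) : rev (del g F) = -del g (inv (rev F)) := by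
  induction F using left_ind with
  | h1 => rw [del_one, map_zero, rev_one, map_one, del_one, neg_zero]
  | hadd F G hF hG => simp only [map_add, hF, hG, neg_add]
  | hsmul c F hF => simp only [map_smul, hF, smul_neg]
  | hpsi a F hF =>
    rw [del_psi_mul, map_sub, map_smul, rev_mul, rev_mul, hF, rev_psi, mul_psi, mul_psi, map_mul,
      map_neg, inv_del, inv_inv, inv_psi, neg_mul, map_neg, del_psi_mul]
    simp

/-- The antisymmetric part. -/
noncomputable def aP (C : Matrix S S ℝ) : Matrix S S ℝ := (1 / 2 : ℝ) • (C - Cᵀ)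

omit [Fintype S] [DecidableEq S] in
theorem aP_eq {C : Matrix S S ℝ} (hC : Cᵀ = -C) : aP C = C := by
  rw [aP, hC, sub_neg_eq_add, ← two_smul ℝ, smul_smul]
  norm_num

theorem covB_apply (C : Matrix S S ℝ) (δ : S → ℝ) : covB C δ = pair (-(δ ᵥ* aP C)) := by
  refine LinearMap.ext fun δ' => ?_
  change covB C δ δ' = δ' ⬝ᵥ -(δ ᵥ* aP C)
  rw [covB, Matrix.toBilin'_apply', dotProduct_comm δ', neg_dotProduct, ← Matrix.dotProduct_mulVec,
    aP, neg_smul, Matrix.neg_mulVec, dotProduct_neg]

theorem gauss_psi_mul' (C : Matrix S S ℝ) (δ : S → ℝ) (F : Gr S) :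
    gauss C (psi δ * F) = psi δ * gauss C F + del (δ ᵥ* aP C) (gauss C F) := by
  have := CliffordAlgebra.changeForm_ι_mul (covB_quad C) δ F
  rw [covB_apply] at this
  rw [← sub_neg_eq_add, ← del_neg_left]
  exact this

end A1

theorem gauss_psi_mul {C : Matrix S S ℝ} (hC : Cᵀ = -C) (δ : S → ℝ) (F : Gr S) :
    gauss C (psi δ * F) = psi δ * gauss C F + del (δ ᵥ* C) (gauss C F) := by
  rw [gauss_psi_mul', aP_eq hC]

theorem gauss_one (C : Matrix S S ℝ) : gauss C 1 = 1 := CliffordAlgebra.changeForm_one _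

theorem gauss_del (C : Matrix S S ℝ) (g : S → ℝ) (F : Gr S) :
    gauss C (del g F) = del g (gauss C F) := CliffordAlgebra.changeForm_contractLeft _ _ F

theorem gauss_add (C C' : Matrix S S ℝ) (F : Gr S) :
    gauss (C + C') F = gauss C (gauss C' F) := by
  have e : aP (C + C') = aP C + aP C' := by
    unfold aP; rw [← smul_add, transpose_add]; congr 1; abel
  induction F using left_ind with
  | h1 => simp only [gauss_one]
  | hadd F G hF hG => simp only [map_add, hF, hG]
  | hsmul c F hF => simp only [map_smul, hF]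
  | hpsi a F hF =>
    rw [gauss_psi_mul', gauss_psi_mul', map_add, gauss_psi_mul', gauss_del, hF, e,
      Matrix.vecMul_add, del_add_left, add_assoc]

theorem gauss_zero (F : Gr S) : gauss (0 : Matrix S S ℝ) F = F := by
  induction F using left_ind with
  | h1 => exact gauss_one _
  | hadd F G hF hG => simp only [map_add, hF, hG]
  | hsmul c F hF => simp only [map_smul, hF]
  | hpsi a F hF =>
    rw [gauss_psi_mul (by simp), hF, Matrix.vecMul_zero, del_zero_left, add_zero]

theorem A1.gauss_inv (C : Matrix S S ℝ) (F : Gr S) : gauss C (inv F) = inv (gauss C F) := by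
  induction F using left_ind with
  | h1 => rw [map_one, gauss_one, map_one]
  | hadd F G hF hG => simp only [map_add, hF, hG]
  | hsmul c F hF => simp only [map_smul, hF]
  | hpsi a F hF =>
    rw [map_mul, inv_psi, neg_mul, map_neg, gauss_psi_mul', gauss_psi_mul', hF, map_add, map_mul,
      inv_psi, inv_del, neg_mul, neg_add]

theorem A1.gauss_psi (C : Matrix S S ℝ) (δ : S → ℝ) : gauss C (psi δ) = psi δ :=
  CliffordAlgebra.changeForm_ι _ δ

theorem gauss_even (C : Matrix S S ℝ) {F : Gr S} (hF : F ∈ evenS S) : gauss C F ∈ evenS S := by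
  rw [mem_even_iff] at hF ⊢
  rw [← gauss_inv, hF]

theorem psi_mem_loc {T : Set S} {δ : S → ℝ} (h : ∀ s ∉ T, δ s = 0) : psi δ ∈ loc T := by
  rw [psi_eq_sum]
  refine Subalgebra.sum_mem _ fun s _ => ?_
  by_cases hs : s ∈ T
  · exact Subalgebra.smul_mem _ (gen_mem hs) _
  · rw [h s hs, zero_smul]; exact Subalgebra.zero_mem _

theorem del_loc (g : S → ℝ) {T : Set S} {F : Gr S} (hF : F ∈ loc T) : del g F ∈ loc T := by
  induction hF using loc_ind with
  | h1 => rw [del_one]; exact Subalgebra.zero_mem _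
  | hadd F G _ _ hF hG => rw [map_add]; exact Subalgebra.add_mem _ hF hG
  | hsmul c F _ hF => rw [map_smul]; exact Subalgebra.smul_mem _ hF c
  | hgen s hs F hF ih =>
    rw [del_gen_mul]
    exact Subalgebra.sub_mem _ (Subalgebra.smul_mem _ hF _) (Subalgebra.mul_mem _ (gen_mem hs) ih)

theorem gauss_loc (C : Matrix S S ℝ) {T : Set S} {F : Gr S} (hF : F ∈ loc T) :
    gauss C F ∈ loc T := by
  induction hF using loc_ind with
  | h1 => rw [gauss_one]; exact Subalgebra.one_mem _
  | hadd F G _ _ hF hG => rw [map_add]; exact Subalgebra.add_mem _ hF hG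
  | hsmul c F _ hF => rw [map_smul]; exact Subalgebra.smul_mem _ hF c
  | hgen s hs F _ ih =>
    rw [gen, gauss_psi_mul']
    exact Subalgebra.add_mem _ (Subalgebra.mul_mem _ (gen_mem hs) ih) (del_loc _ ih)

theorem del_congr {g g' : S → ℝ} {T : Set S} {F : Gr S} (hF : F ∈ loc T)
    (h : ∀ s ∈ T, g s = g' s) : del g F = del g' F := by
  induction hF using loc_ind with
  | h1 => rw [del_one, del_one]
  | hadd F G _ _ hF hG => simp only [map_add, hF, hG]
  | hsmul c F _ hF => simp only [map_smul, hF]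
  | hgen s hs F _ ih => rw [del_gen_mul, del_gen_mul, ih, h s hs]

theorem A1.del_eq_zero {g : S → ℝ} {T : Set S} {F : Gr S} (hF : F ∈ loc T)
    (h : ∀ s ∈ T, g s = 0) : del g F = 0 := by
  rw [del_congr (g' := 0) hF h, del_zero_left]

theorem gauss_congr {C C' : Matrix S S ℝ} (hC : Cᵀ = -C) (hC' : C'ᵀ = -C') {T : Set S} {F : Gr S}
    (hF : F ∈ loc T) (h : ∀ s ∈ T, ∀ s' ∈ T, C s s' = C' s s') : gauss C F = gauss C' F := by
  induction hF using loc_ind with
  | h1 => rw [gauss_one, gauss_one]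
  | hadd F G _ _ hF hG => simp only [map_add, hF, hG]
  | hsmul c F _ hF => simp only [map_smul, hF]
  | hgen s hs F hF ih =>
    rw [gen, gauss_psi_mul hC, gauss_psi_mul hC', ih]
    congr 1
    refine del_congr (gauss_loc C' hF) fun s' hs' => ?_
    simp [h s hs s' hs']

theorem gauss_mul {C : Matrix S S ℝ} (hC : Cᵀ = -C) {T T' : Set S} {F G : Gr S} (hF : F ∈ loc T)
    (hG : G ∈ loc T') (h : ∀ s ∈ T, ∀ s' ∈ T', C s s' = 0) :
    gauss C (F * G) = gauss C F * gauss C G := by
  induction hF using loc_ind with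
  | h1 => rw [one_mul, gauss_one, one_mul]
  | hadd F F' _ _ hF hF' => simp only [add_mul, map_add, hF, hF']
  | hsmul c F _ hF => simp only [smul_mul_assoc, map_smul, hF]
  | hgen s hs F _ ih =>
    have h0 : del (Pi.single s 1 ᵥ* C) (gauss C G) = 0 :=
      del_eq_zero (gauss_loc C hG) fun s' hs' => by simp [h s hs s' hs']
    rw [mul_assoc, gen, gauss_psi_mul hC, gauss_psi_mul hC, ih, del_mul, h0, mul_zero, add_zero,
      add_mul, mul_assoc]

omit [Fintype S] [Fintype S'] [DecidableEq S'] in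
theorem map_congr {f f' : (S → ℝ) →ₗ[ℝ] (S' → ℝ)} {T : Set S} {F : Gr S} (hF : F ∈ loc T)
    (h : ∀ s ∈ T, f (Pi.single s 1) = f' (Pi.single s 1)) :
    ExteriorAlgebra.map f F = ExteriorAlgebra.map f' F := by
  induction hF using loc_ind with
  | h1 => rw [map_one, map_one]
  | hadd F G _ _ hF hG => simp only [map_add, hF, hG]
  | hsmul c F _ hF => simp only [map_smul, hF]
  | hgen s hs F _ ih => rw [map_mul, map_mul, ih, gen, map_psi, map_psi, h s hs]

omit [Fintype S] in
theorem A1.res_single {T : Set S} {s : S} (hs : s ∈ T) :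
    res T (Pi.single s 1) = Pi.single s 1 := by
  funext t
  change (open Classical in if t ∈ T then (Pi.single s 1 : S → ℝ) t else 0) = _
  split_ifs with ht
  · rfl
  · rw [Pi.single_eq_of_ne]; rintro rfl; exact ht hs

omit [Fintype S] in
theorem map_res {T : Set S} {F : Gr S} (hF : F ∈ loc T) : ExteriorAlgebra.map (res T) F = F := by
  rw [map_congr (f' := LinearMap.id) hF fun s hs => res_single hs, ExteriorAlgebra.map_id]
  rfl

omit [Fintype S] in
theorem map_loc {f : (S → ℝ) →ₗ[ℝ] (S' → ℝ)} {T : Set S} {T' : Set S'} {F : Gr S} (hF : F ∈ loc T)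
    (h : ∀ s ∈ T, ∀ s' ∉ T', f (Pi.single s 1) s' = 0) : ExteriorAlgebra.map f F ∈ loc T' := by
  induction hF using loc_ind with
  | h1 => rw [map_one]; exact Subalgebra.one_mem _
  | hadd F G _ _ hF hG => rw [map_add]; exact Subalgebra.add_mem _ hF hG
  | hsmul c F _ hF => rw [map_smul]; exact Subalgebra.smul_mem _ hF c
  | hgen s hs F _ ih =>
    rw [map_mul, gen, map_psi]
    exact Subalgebra.mul_mem _ (psi_mem_loc (h s hs)) ih

omit [Fintype S] [DecidableEq S] [Fintype S'] [DecidableEq S'] in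
theorem map_even (f : (S → ℝ) →ₗ[ℝ] (S' → ℝ)) {F : Gr S} (hF : F ∈ evenS S) :
    ExteriorAlgebra.map f F ∈ evenS S' := by
  rw [mem_even_iff] at hF ⊢
  rw [← map_inv, hF]

omit [Fintype S] [DecidableEq S] [Fintype S'] [DecidableEq S'] in
theorem aug_map (f : (S → ℝ) →ₗ[ℝ] (S' → ℝ)) (F : Gr S) :
    aug (ExteriorAlgebra.map f F) = aug F := by
  induction F using left_ind with
  | h1 => simp only [map_one]
  | hadd F G hF hG => simp only [map_add, hF, hG]
  | hsmul c F hF => simp only [map_smul, hF]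
  | hpsi a F _ => simp only [map_mul, map_psi, aug_psi, zero_mul]

omit [DecidableEq S'] in
theorem del_map (f : (S → ℝ) →ₗ[ℝ] (S' → ℝ)) (g : S → ℝ) (g' : S' → ℝ) {T : Set S} {F : Gr S}
    (hF : F ∈ loc T) (h : ∀ s ∈ T, f (Pi.single s 1) ⬝ᵥ g' = g s) :
    del g' (ExteriorAlgebra.map f F) = ExteriorAlgebra.map f (del g F) := by
  induction hF using loc_ind with
  | h1 => rw [map_one, del_one, del_one, map_zero]
  | hadd F G _ _ hF hG => simp only [map_add, hF, hG]
  | hsmul c F _ hF => simp only [map_smul, hF]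
  | hgen s hs F _ ih =>
    rw [del_gen_mul, map_sub, map_smul, map_mul (ExteriorAlgebra.map f),
      map_mul (ExteriorAlgebra.map f), gen, map_psi, del_psi_mul, ih, h s hs]

theorem gauss_map {C : Matrix S S ℝ} {C' : Matrix S' S' ℝ} (hC : Cᵀ = -C) (hC' : C'ᵀ = -C')
    (f : (S → ℝ) →ₗ[ℝ] (S' → ℝ)) {T : Set S} {F : Gr S} (hF : F ∈ loc T)
    (h : ∀ s ∈ T, ∀ s' ∈ T, f (Pi.single s 1) ⬝ᵥ C' *ᵥ f (Pi.single s' 1) = C s s') :
    gauss C' (ExteriorAlgebra.map f F) = ExteriorAlgebra.map f (gauss C F) := by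
  induction hF using loc_ind with
  | h1 => rw [map_one, gauss_one, gauss_one, map_one]
  | hadd F G _ _ hF hG => simp only [map_add, hF, hG]
  | hsmul c F _ hF => simp only [map_smul, hF]
  | hgen s hs F hF ih =>
    rw [map_mul, gen, map_psi, gauss_psi_mul hC', gauss_psi_mul hC, ih, map_add, map_mul, map_psi]
    congr 1
    refine del_map f _ _ (gauss_loc C hF) fun s' hs' => ?_
    rw [dotProduct_comm, ← Matrix.dotProduct_mulVec, h s hs s' hs']
    simp

theorem gauss_reverse (C : Matrix S S ℝ) (F : Gr S) :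
    gauss (-C) (CliffordAlgebra.reverse F) = CliffordAlgebra.reverse (gauss C F) := by
  have e : aP (-C) = -aP C := by
    unfold aP; rw [← smul_neg, transpose_neg]; congr 1; abel
  change gauss (-C) (rev F) = rev (gauss C F)
  induction F using left_ind with
  | h1 => simp only [rev_one, gauss_one]
  | hadd F G hF hG => simp only [map_add, hF, hG]
  | hsmul c F hF => simp only [map_smul, hF]
  | hpsi a F hF =>
    rw [rev_mul, rev_psi, mul_psi, gauss_psi_mul', gauss_psi_mul', gauss_inv, hF, map_add, rev_mul,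
      rev_psi, mul_psi, rev_del, e, Matrix.vecMul_neg, del_neg_left]

omit [DecidableEq S] in
theorem beta_reverse (F : Gr S) (g g' : S → ℝ) :
    beta (CliffordAlgebra.reverse F) g g' = -beta F g g' := by
  have e : del g (rev F) = inv (rev (del g F)) := by
    rw [rev_del, map_neg, inv_del, inv_inv, neg_neg]
  change aug (del g' (del g (rev F))) = -aug (del g' (del g F))
  rw [e, ← aug_rev (del g' (del g F)), rev_del g', map_neg, neg_neg]

omit [DecidableEq S] in
theorem beta_pp (δ δ' g g' : S → ℝ) :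
    beta (psi δ * psi δ') g g' = (δ ⬝ᵥ g) * (δ' ⬝ᵥ g') - (δ' ⬝ᵥ g) * (δ ⬝ᵥ g') := by
  rw [beta, del_psi_mul, del_psi, mul_smul_comm, mul_one, map_sub, map_smul, map_smul, del_psi,
    del_psi]
  simp

omit [Fintype S] [DecidableEq S] in
theorem A1.psi_psi_even (δ δ' : S → ℝ) : psi δ * psi δ' ∈ evenS S := by
  rw [mem_even_iff, map_mul, inv_psi, inv_psi, neg_mul_neg]

theorem val_pp (δ δ' : S → ℝ) : Ev.val (pp δ δ') = psi δ * psi δ' :=
  val_toEv (psi_psi_even δ δ')

theorem val_evG (C : Matrix S S ℝ) (F : Ev S) : Ev.val (evG C F) = gauss C (Ev.val F) :=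
  val_toEv (gauss_even C (Ev.val_mem F))

theorem val_evMap (f : (S → ℝ) →ₗ[ℝ] (S' → ℝ)) (F : Ev S) :
    Ev.val (evMap f F) = ExteriorAlgebra.map f (Ev.val F) :=
  val_toEv (map_even f (Ev.val_mem F))

theorem evG_pp {C : Matrix S S ℝ} (hC : Cᵀ = -C) (δ δ' : S → ℝ) :
    evG C (pp δ δ') = pp δ δ' + (δ ⬝ᵥ C *ᵥ δ') • 1 := by
  apply Ev.val_injective
  rw [val_evG, map_add, map_smul, map_one, val_pp, gauss_psi_mul hC, gauss_psi, del_psi,
    dotProduct_comm δ', ← Matrix.dotProduct_mulVec]

end A1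

end Vale.Agent.P144Z
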